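import Vale.Agent.Lib.P302N.H25.Lv7

namespace Vale.Agent.Lib.P302N.H25

open Vale.Agent.Lib.P302T Vale.Agent.Lib.P302N

theorem lp_ok : lpCheck cap den sizes cert = true :=
  lpCheckB_sound cap den sizes cert blocks (by decide +kernel)

end Vale.Agent.Lib.P302N.H25
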