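import Vale.Agent.Lib.P302N.H25.Data

namespace Vale.Agent.Lib.P302N.H25

open Vale.Agent.Lib.P302T Vale.Agent.Lib.P302N

theorem level2_ok : levelOK4 cap wild (base ++ level1.Y) 27 level2 = true := by decide +kernel

end Vale.Agent.Lib.P302N.H25
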