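import Vale.Agent.Lib.P302N.H25.Data
import Vale.Agent.Lib.P302N.H25.Lv5

namespace Vale.Agent.Lib.P302N.H25

open Vale.Agent.Lib.P302T Vale.Agent.Lib.P302N

theorem level7_ok : levelOK4 cap wild (base ++ level1.Y ++ level2.Y ++ level3.Y ++ level4.Y ++ level5.Y ++ level6.Y) 157 level7 = true := by decide +kernel

end Vale.Agent.Lib.P302N.H25
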