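import Vale.Agent.Lib.P302N.H25.Lv1
import Vale.Agent.Lib.P302N.H25.Lv2
import Vale.Agent.Lib.P302N.H25.Lv3
import Vale.Agent.Lib.P302N.H25.Lv4
import Vale.Agent.Lib.P302N.H25.Lv5
import Vale.Agent.Lib.P302N.H25.Lv6
import Vale.Agent.Lib.P302N.H25.Lv7
import Vale.Agent.Lib.P302N.H25.Lp

namespace Vale.Agent.Lib.P302N.H25

open Vale.Agent.Lib.P302T Vale.Agent.Lib.P302N

theorem bound1 : TBound cap ((base ++ level1.Y : List ℕ) : Multiset ℕ) 27 :=
  level_bound4 cap wild (by decide) (base) 1 level1 base_bound level1_ok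

theorem bound2 : TBound cap ((base ++ level1.Y ++ level2.Y : List ℕ) : Multiset ℕ) 53 :=
  level_bound4 cap wild (by decide) (base ++ level1.Y) 27 level2 bound1 level2_ok

theorem bound3 : TBound cap ((base ++ level1.Y ++ level2.Y ++ level3.Y : List ℕ) : Multiset ℕ) 79 :=
  level_bound4 cap wild (by decide) (base ++ level1.Y ++ level2.Y) 53 level3 bound2 level3_ok

theorem bound4 : TBound cap ((base ++ level1.Y ++ level2.Y ++ level3.Y ++ level4.Y : List ℕ) : Multiset ℕ) 105 :=
  level_bound4 cap wild (by decide) (base ++ level1.Y ++ level2.Y ++ level3.Y) 79 level4 bound3 level4_ok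

theorem bound5 : TBound cap ((base ++ level1.Y ++ level2.Y ++ level3.Y ++ level4.Y ++ level5.Y : List ℕ) : Multiset ℕ) 131 :=
  level_bound4 cap wild (by decide) (base ++ level1.Y ++ level2.Y ++ level3.Y ++ level4.Y) 105 level5 bound4 level5_ok

theorem bound6 : TBound cap ((base ++ level1.Y ++ level2.Y ++ level3.Y ++ level4.Y ++ level5.Y ++ level6.Y : List ℕ) : Multiset ℕ) 157 :=
  level_bound4 cap wild (by decide) (base ++ level1.Y ++ level2.Y ++ level3.Y ++ level4.Y ++ level5.Y) 131 level6 bound5 level6_ok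

theorem bound7 : TBound cap ((base ++ level1.Y ++ level2.Y ++ level3.Y ++ level4.Y ++ level5.Y ++ level6.Y ++ level7.Y : List ℕ) : Multiset ℕ) 183 :=
  level_bound4 cap wild (by decide) (base ++ level1.Y ++ level2.Y ++ level3.Y ++ level4.Y ++ level5.Y ++ level6.Y) 157 level7 bound6 level7_ok

theorem triples_bound : TBound cap (sizes : Multiset ℕ) 183 := bound7

theorem gap_bound : IsInstance (scaled cap sizes) ∧
    ((89559313 : ℝ) / 71663616) ≤ (OPT (scaled cap sizes) : ℝ) - LP (scaled cap sizes) := by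
  have h := gap_certificate' cap den sizes 183 186 cert (by decide) (by decide)
    (by decide +kernel) (by decide +kernel) triples_bound (by decide +kernel) lp_ok
  have hsum : (cert.map (fun p => p.2)).sum = 13239873263 := by decide +kernel
  rw [hsum] at h
  refine ⟨h.1, le_trans ?_ h.2⟩
  norm_num [den]

end Vale.Agent.Lib.P302N.H25
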